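import Vale.Agent.P226.Certificate

/-! # P226: the Gaussian propeller conjecture -/

namespace Vale.Agent.Results.P226.PropellerConjecture

open MeasureTheory ProbabilityTheory

/-- For every dimension `d`, every number `k` of cells and every family of `k` measurable, pairwise
almost everywhere disjoint sets, the sum of the squared norms of the Gaussian first moments is at
most `9 / (8π)`. -/
theorem result (d k : ℕ) (A : Fin k → Set (EuclideanSpace ℝ (Fin d)))
    (hm : ∀ i, MeasurableSet (A i))
    (hd : Pairwise fun i j => AEDisjoint (stdGaussian (EuclideanSpace ℝ (Fin d))) (A i) (A j)) :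
    ∑ i, ‖∫ x in A i, x ∂(stdGaussian (EuclideanSpace ℝ (Fin d)))‖ ^ 2 ≤ 9 / (8 * Real.pi) :=
  Vale.Agent.P226.reduction Vale.Agent.P226.emaxBound d k A hm hd

end Vale.Agent.Results.P226.PropellerConjecture
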